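import Vale.Agent.P122.E.Defs
import Vale.Agent.P122.H518.E12
import Vale.Agent.P122.H474.Res
import Vale.Agent.P127.U.PLa
import Vale.Agent.P127.U.ExcB

/-!
# P122 / H624 : variables which take few values off a rare event; vectors of a box in another frame (helper624)
-/

set_option autoImplicit false

namespace Vale.Agent.P122.H624

open Filter Topology Finset Vale.Agent.P127 Vale.Agent.P127.Stk Vale.Agent.P127.U Vale.Agent.P127.U.Sys Vale.Agent.P122.C2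
  Vale.Agent.P122.E Vale.Agent.P122.H474 Vale.Agent.P122.H518

variable {S : Sys} {β : Type*}

/-- an integer variable of exponential size is tame -/
theorem tame_int {X : S.RV ℤ} {C : ℝ} (hC : 0 ≤ C)
    (hX : ∀ᶠ i in (uf : Filter ℕ), ∀ ω, 0 < (S.P i).w ω → |(X i ω : ℝ)| ≤ (2:ℝ) ^ (C * S.L i)) : Tame X := by
  refine ⟨C + 3, ?_⟩
  filter_upwards [hX, S.L_pos] with i hi hL
  have hL1 : (1:ℝ) ≤ S.L i := by exact_mod_cast hL
  have hl2 : 0 < Real.log 2 := Real.log_pos (by norm_num)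
  have h0 : (1:ℝ) ≤ (2:ℝ) ^ (C * S.L i) := Real.one_le_rpow (by norm_num) (by positivity)
  rw [← stk_hc_one]
  have h1 := fin_hc_le (S.P i) (X i) (fun _ => ()) (3 * (2:ℝ) ^ (C * S.L i)) fun ω hω => by
    refine ⟨Finset.Icc (-⌊(2:ℝ) ^ (C * S.L i)⌋) ⌊(2:ℝ) ^ (C * S.L i)⌋, ?_, fun ω' hω' _ => ?_⟩
    · rw [Int.card_Icc]
      have h2 : (0:ℤ) ≤ ⌊(2:ℝ) ^ (C * S.L i)⌋ := Int.floor_nonneg.2 (by linarith)
      have h3 : ((⌊(2:ℝ) ^ (C * S.L i)⌋ + 1 - -⌊(2:ℝ) ^ (C * S.L i)⌋).toNat : ℤ) =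
        2 * ⌊(2:ℝ) ^ (C * S.L i)⌋ + 1 := by
        rw [Int.toNat_of_nonneg (by omega)]
        ring
      have h4 : (((⌊(2:ℝ) ^ (C * S.L i)⌋ + 1 - -⌊(2:ℝ) ^ (C * S.L i)⌋).toNat : ℕ) : ℝ) =
        2 * (⌊(2:ℝ) ^ (C * S.L i)⌋ : ℝ) + 1 := by
        exact_mod_cast h3
      rw [h4]
      have h5 := Int.floor_le ((2:ℝ) ^ (C * S.L i))
      linarith
    · rw [Finset.mem_Icc]
      have h2 := abs_le.1 (hi ω' hω')
      constructor
      · rw [neg_le]
        refine Int.le_floor.2 ?_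
        push_cast
        linarith [h2.1]
      · exact Int.le_floor.2 h2.2
  refine h1.trans ?_
  rw [Real.log_mul (by norm_num) (by positivity), log_two_pow]
  have h6 : Real.log 3 ≤ 2 * Real.log 2 := by
    have : (2:ℝ) * Real.log 2 = Real.log 4 := by
      rw [show (4:ℝ) = 2 ^ 2 by norm_num, Real.log_pow]
      norm_num
    rw [this]
    exact Real.log_le_log (by norm_num) (by norm_num)
  unfold Sys.nm
  nlinarith [mul_nonneg (sub_nonneg.2 hL1) hl2.le]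

/-- **few values off a rare event** -/
theorem hc_int_rare {X : S.RV ℤ} {Z : S.RV β} {E : ∀ i, S.Ω i → Prop} (hE : Rare S E) {r C : ℝ} (hr : 0 ≤ r)
    (hC : 0 ≤ C)
    (hX : ∀ᶠ i in (uf : Filter ℕ), ∀ ω, 0 < (S.P i).w ω → |(X i ω : ℝ)| ≤ (2:ℝ) ^ (C * S.L i))
    (h : ∀ ε : ℝ, 0 < ε → ∀ᶠ i in (uf : Filter ℕ), ∀ ω ω', 0 < (S.P i).w ω → 0 < (S.P i).w ω' →
      ¬ E i ω → ¬ E i ω' → Z i ω' = Z i ω → |(X i ω' : ℝ) - X i ω| ≤ (2:ℝ) ^ ((r + ε) * S.L i)) :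
    S.hc X Z ≤ r := by
  classical
  have tX : Tame X := tame_int hC hX
  set b : S.RV Prop := fun i ω => E i ω with hb
  have zb : ∀ {δ : Type _} (Y : S.RV δ), S.hc b Y = 0 := by
    intro δ Y
    refine hc_zero_of_le (Real.log ((2 : ℕ) : ℝ)) (Eventually.of_forall fun i => ?_)
    refine Stk.hc_le_log (S.P i) (b i) (Y i) 2 fun ω _ => ⟨{True, False}, ?_, fun ω' _ _ => ?_⟩
    · exact Finset.card_le_two
    · by_cases h1 : b i ω'
      · simp [h1]
      · simp [h1]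
  have tb : Tame b := by
    refine ⟨1, ?_⟩
    filter_upwards [S.L_pos] with i hL
    have hL1 : (1:ℝ) ≤ S.L i := by exact_mod_cast hL
    have hl2 : 0 < Real.log 2 := Real.log_pos (by norm_num)
    rw [← stk_hc_one]
    have h1 : Stk.hc (S.P i) (b i) (fun _ => ()) ≤ Real.log ((2:ℕ):ℝ) := by
      refine Stk.hc_le_log (S.P i) (b i) _ 2 fun ω _ => ⟨{True, False}, Finset.card_le_two, fun ω' _ _ => ?_⟩
      by_cases h1 : b i ω'
      · simp [h1]
      · simp [h1]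
    refine h1.trans ?_
    unfold Sys.nm
    push_cast
    nlinarith
  have h1 := hc_le_add tX tb Z
  rw [zb Z, add_zero] at h1
  refine h1.trans ?_
  refine le_of_forall_pos_le_add fun ε hε => ?_
  refine ulim_le_const (UB.hc tX _) ?_
  obtain ⟨η, hη, hE1⟩ := hE
  have hε4 : 0 < ε / 4 := by positivity
  filter_upwards [S.nm_pos, S.L_pos, hX, h (ε / 4) hε4, hE1,
    two_rpow_small (S := S) η hη (ε / (4 * (C + 1))) (by positivity),
    S.L_pos, S.nm_tendsto.eventually_ge_atTop (2 * Real.log 3 / (ε / 4))] with i hnm hLp hi1 hi2 hi3 hi4 _ hi5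
  rw [div_le_iff₀ hnm]
  have hl2 : 0 < Real.log 2 := Real.log_pos (by norm_num)
  have hl3 : 0 < Real.log 3 := Real.log_pos (by norm_num)
  have hL1 : (1:ℝ) ≤ S.L i := by exact_mod_cast hLp
  set A : ℝ := (2:ℝ) ^ (C * S.L i) with hA
  set M : ℝ := (2:ℝ) ^ ((r + ε / 4) * S.L i) with hM
  have hA1 : (1:ℝ) ≤ A := Real.one_le_rpow (by norm_num) (by positivity)
  have hM1 : (1:ℝ) ≤ M := Real.one_le_rpow (by norm_num) (by positivity)
  have hlog : ∀ {q : ℝ}, 1 ≤ q → Real.log ((2 * ⌊q⌋₊ + 1 : ℕ) : ℝ) ≤ Real.log 3 + Real.log q := by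
    intro q hq
    rw [← Real.log_mul (by norm_num) (by linarith)]
    refine Real.log_le_log (by positivity) ?_
    push_cast
    have := Nat.floor_le (by linarith : (0:ℝ) ≤ q)
    linarith
  have hcard : ∀ (x : ℤ) {q : ℝ}, 0 ≤ q → (Finset.Icc (x - ⌊q⌋₊) (x + ⌊q⌋₊)).card = 2 * ⌊q⌋₊ + 1 := by
    intro x q hq
    rw [Int.card_Icc]
    omega
  have hmem : ∀ {x y : ℤ} {q : ℝ}, 0 ≤ q → |(y : ℝ) - x| ≤ q → y ∈ Finset.Icc (x - (⌊q⌋₊ : ℤ)) (x + ⌊q⌋₊) := by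
    intro x y q hq hxy
    rw [Finset.mem_Icc]
    have h2 : (y - x).natAbs ≤ ⌊q⌋₊ := by
      refine Nat.le_floor ?_
      rw [Nat.cast_natAbs]
      push_cast
      exact hxy
    omega
  have hkey : Stk.hc (S.P i) (X i) (Sys.pr b Z i) ≤
      (S.P i).ex fun ω => Real.log (((if E i ω then 2 * ⌊A⌋₊ + 1 else 2 * ⌊M⌋₊ + 1 : ℕ)) : ℝ) := by
    refine PL.hc_le_exlog (S.P i) (X i) (Sys.pr b Z i)
      (fun ω => if E i ω then 2 * ⌊A⌋₊ + 1 else 2 * ⌊M⌋₊ + 1) fun ω hω => ?_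
    by_cases hEω : E i ω
    · refine ⟨Finset.Icc (0 - (⌊A⌋₊ : ℤ)) (0 + ⌊A⌋₊), ?_, fun ω' hω' e => ?_⟩
      · rw [if_pos hEω, hcard 0 (by linarith)]
      · refine hmem (by linarith) ?_
        push_cast
        rw [sub_zero]
        exact hi1 ω' hω'
    · refine ⟨Finset.Icc (X i ω - (⌊M⌋₊ : ℤ)) (X i ω + ⌊M⌋₊), ?_, fun ω' hω' e => ?_⟩
      · rw [if_neg hEω, hcard _ (by linarith)]
      · refine hmem (by linarith) ?_
        have e1 : b i ω' = b i ω := congrArg Prod.fst e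
        have e2 : Z i ω' = Z i ω := congrArg Prod.snd e
        have hEω' : ¬ E i ω' := by
          intro h3
          exact hEω (by
            have : b i ω := by rw [← e1]; exact h3
            exact this)
        exact hi2 ω ω' hω hω' hEω hEω' e2
  refine hkey.trans ?_
  have hex : ((S.P i).ex fun ω => Real.log (((if E i ω then 2 * ⌊A⌋₊ + 1 else 2 * ⌊M⌋₊ + 1 : ℕ)) : ℝ)) ≤
      (S.P i).ex fun ω => (Real.log 3 + Real.log A) * (if E i ω then 1 else 0) + (Real.log 3 + Real.log M) := by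
    refine (S.P i).ex_mono fun ω _ => ?_
    by_cases hEω : E i ω
    · rw [if_pos hEω, if_pos hEω]
      have h3 := hlog hA1
      have h4 : 0 ≤ Real.log M := Real.log_nonneg hM1
      linarith
    · rw [if_neg hEω, if_neg hEω]
      have h3 := hlog hM1
      linarith
  refine hex.trans ?_
  rw [Law.ex_add, Law.ex_const_mul, Law.ex_const]
  have hp : (S.P i).ex (fun ω => if E i ω then (1:ℝ) else 0) = prb S E i := rfl
  rw [hp]
  have hp0 := prb_nonneg (S := S) E i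
  have hp1 : prb S E i ≤ ε / (4 * (C + 1)) := hi3.trans hi4
  have hp2 : prb S E i ≤ 1 := by
    refine hi3.trans ?_
    refine Real.rpow_le_one_of_one_le_of_nonpos (by norm_num) ?_
    have : 0 ≤ η * (S.L i : ℝ) := by positivity
    linarith
  have eA : Real.log A = C * S.nm i := by
    rw [hA, log_two_pow]
    unfold Sys.nm
    ring
  have eM : Real.log M = (r + ε / 4) * S.nm i := by
    rw [hM, log_two_pow]
    unfold Sys.nm
    ring
  rw [eA, eM]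
  have h6 : Real.log 3 * prb S E i ≤ Real.log 3 := by nlinarith
  have h7 : C * S.nm i * prb S E i ≤ ε / 4 * S.nm i := by
    have h8 : C * prb S E i ≤ ε / 4 := by
      calc C * prb S E i ≤ (C + 1) * (ε / (4 * (C + 1))) := by
            refine mul_le_mul (by linarith) hp1 hp0 (by linarith)
        _ = ε / 4 := by field_simp
    nlinarith
  have h9 : 2 * Real.log 3 ≤ ε / 4 * S.nm i := by
    rw [div_le_iff₀ hε4] at hi5
    linarith
  nlinarith [hnm]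

/-! ### geometry -/

theorem fn_eq_co (ψ : ℝ) (v : Fin 2 → ℝ) : fn ψ v = co ψ v 1 := by
  unfold fn co
  simp

/-- a vector of a box, seen in another frame -/
theorem fn_box {θ ψ η D : ℝ} {δ : Fin 2 → ℝ} {k j m : ℕ} (hkj : k ≤ j) (hη : 0 ≤ η)
    (h0 : |co (qa (j - k) θ) δ 0| ≤ (1 / 2 : ℝ) ^ k) (h1 : |co (qa (j - k) θ) δ 1| ≤ (1 / 2 : ℝ) ^ j)
    (hδ : ∀ i, |δ i| ≤ D * (1 / 2 : ℝ) ^ m) (hs : |Real.sin (θ - ψ)| ≤ η) :
    |fn ψ δ| ≤ 2 * (1 / 2 : ℝ) ^ j + η * (2 * (D * (1 / 2 : ℝ) ^ m)) := by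
  set θr := qa (j - k) θ with hθr
  have hq := qa_close (j - k) θ
  rw [← hθr] at hq
  rw [fn_eq_co, co_rot1 θr ψ δ]
  have h2 := abs_co_le (θ := θr) hδ 0
  have hs2 : |Real.sin (ψ - θr)| ≤ η + (1 / 2 : ℝ) ^ (j - k) := by
    have e : ψ - θr = (ψ - θ) + (θ - θr) := by ring
    rw [e]
    refine (ExcB.sin_add_abs _ _).trans (add_le_add ?_ ?_)
    · rw [← abs_neg, ← Real.sin_neg, neg_sub]
      exact hs
    · exact Real.abs_sin_le_abs.trans hq
  have e3 : (1 / 2 : ℝ) ^ (j - k) * (1 / 2 : ℝ) ^ k = (1 / 2 : ℝ) ^ j := by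
    rw [← pow_add, Nat.sub_add_cancel hkj]
  have h4 : |Real.sin (ψ - θr) * co θr δ 0| ≤ η * (2 * (D * (1 / 2 : ℝ) ^ m)) + (1 / 2 : ℝ) ^ j := by
    rw [abs_mul]
    calc |Real.sin (ψ - θr)| * |co θr δ 0| ≤ (η + (1 / 2 : ℝ) ^ (j - k)) * |co θr δ 0| :=
          mul_le_mul_of_nonneg_right hs2 (abs_nonneg _)
      _ = η * |co θr δ 0| + (1 / 2 : ℝ) ^ (j - k) * |co θr δ 0| := by ring
      _ ≤ η * (2 * (D * (1 / 2 : ℝ) ^ m)) + (1 / 2 : ℝ) ^ (j - k) * (1 / 2 : ℝ) ^ k := by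
          refine add_le_add (mul_le_mul_of_nonneg_left h2 hη) (mul_le_mul_of_nonneg_left h0 (by positivity))
      _ = _ := by rw [e3]
  have h5 : |Real.cos (ψ - θr) * co θr δ 1| ≤ (1 / 2 : ℝ) ^ j := by
    rw [abs_mul]
    calc |Real.cos (ψ - θr)| * |co θr δ 1| ≤ 1 * (1 / 2 : ℝ) ^ j :=
          mul_le_mul (Real.abs_cos_le_one _) h1 (abs_nonneg _) zero_le_one
      _ = _ := one_mul _
  have e6 : -Real.sin (ψ - θr) * co θr δ 0 + Real.cos (ψ - θr) * co θr δ 1 =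
      -(Real.sin (ψ - θr) * co θr δ 0) + Real.cos (ψ - θr) * co θr δ 1 := by ring
  rw [e6]
  refine (abs_add_le _ _).trans ?_
  rw [abs_neg]
  linarith

end Vale.Agent.P122.H624
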