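import Vale.Agent.P122.H540.Spec
import Vale.Agent.P122.H265.Fat
import Vale.Agent.P122.H265.Sig
import Vale.Agent.P122.H518.E12

/-!
# P122 / H624 : the Kakeya step with the fattened plank (helper624)
-/

set_option autoImplicit false

namespace Vale.Agent.P122.H624

open Filter Topology Finset Vale.Agent.P127 Vale.Agent.P127.Stk Vale.Agent.P127.U Vale.Agent.P127.U.Sys Vale.Agent.P122.C2
  Vale.Agent.P122.E Vale.Agent.P122.H518 Vale.Agent.P122.H265 Vale.Agent.P122.H540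

section flg

variable {K : ℕ} (F : Flg K)

/-- `ν (m n) = m / K` -/
theorem nu_mul (hK : 1 ≤ K) (m : ℕ) : F.S.nu (fun a => m * F.n a) = (m : ℝ) / K := by
  refine ulim_eq ?_
  refine tendsto_const_nhds.congr' ?_
  filter_upwards [F.S.L_pos] with a ha
  have hK0 : (0:ℝ) < K := by exact_mod_cast hK
  have hL : (0:ℝ) < F.S.L a := by exact_mod_cast ha
  have e := F.L_eq a
  have hn : (0:ℝ) < F.n a := by
    rw [e] at ha
    have : 0 < F.n a := Nat.pos_of_mul_pos_left ha |> fun h => by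
      rcases Nat.eq_zero_or_pos (F.n a) with h0 | h0
      · rw [h0, mul_zero] at ha
        exact absurd ha (lt_irrefl _)
      · exact h0
    exact_mod_cast this
  rw [e]
  push_cast
  field_simp

/-- the line of the node in its ball is normalised -/
theorem lnA_ln {c : ℕ} (hc : c ≤ K) : LnA (F.ln c) := by
  refine Eventually.of_forall fun a ω hω => ?_
  refine ⟨fun k => ?_, fun k => ?_⟩
  · show |Int.fract _| ≤ 1
    rw [abs_of_nonneg (Int.fract_nonneg _)]
    exact (Int.fract_lt_one _).le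
  · exact (F.slp a).bd c _ k hc ((chn F a ω hω).cap c hc)

theorem bd_m (c : ℕ) (hc : c ≤ K) : ∃ x : ℝ, ∀ᶠ a in (uf : Filter ℕ), (F.m c a : ℝ) ≤ x * F.S.L a := by
  refine ⟨1, Eventually.of_forall fun a => ?_⟩
  rw [one_mul]
  have h1 : F.m c a ≤ F.S.L a := by
    rw [F.L_eq]
    exact Nat.mul_le_mul_right _ hc
  exact_mod_cast h1

variable {F} {J θ H e : ℕ → ℝ} {W : ℕ → F.S.BX} {kk jj : ℕ → ℕ → ℕ}

/-- the optimal plank contains the tube -/
theorem sub_W (R : RegA F J θ H e W kk jj) {c : ℕ} (hc : c ≤ K) : SubA (tubes (F.m c) (F.ln c)) (W c) := by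
  refine ⟨1, ?_⟩
  filter_upwards [R.Wok c hc] with a h1 ω hω
  obtain ⟨h2, h3, h4, h5, h6, h7⟩ := h1 ω hω
  refine ⟨h2, h3, by rw [h4, h5]; exact h6, ?_, ?_, ?_⟩
  · rw [h4]
    exact h6.trans h7
  · rw [h5]
    exact h7
  · rw [h5]
    show |Real.sin _| * (1 / 2 : ℝ) ^ (F.m c a) ≤ 1 * (1 / 2 : ℝ) ^ jj c a
    have h8 : (1 / 2 : ℝ) ^ (F.m c a) ≤ (1 / 2 : ℝ) ^ jj c a :=
      pow_le_pow_of_le_one (by norm_num) (by norm_num) h7
    exact mul_le_mul (Real.abs_sin_le_one _) h8 (by positivity) zero_le_one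

theorem bxA_W (R : RegA F J θ H e W kk jj) {c : ℕ} (hc : c ≤ K) : BxA (W c) :=
  bxA_of_sub (Fi.tubes_bxA (bd_m F c hc) (lnA_ln F hc)) (sub_W R hc)

theorem bd_jj (R : RegA F J θ H e W kk jj) {c : ℕ} (hc : c ≤ K) : F.S.Bd (jj c) := by
  refine ⟨1, ?_⟩
  filter_upwards [R.Wok c hc] with a h1
  obtain ⟨ω, hω⟩ := law_pos (F.S.P a)
  obtain ⟨-, -, -, -, -, h7⟩ := h1 ω hω
  rw [one_mul]
  have h2 : jj c a ≤ F.S.L a := by
    rw [F.L_eq]
    exact h7.trans (Nat.mul_le_mul_right _ hc)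
  exact_mod_cast h2

theorem bd_kk (R : RegA F J θ H e W kk jj) {c : ℕ} (hc : c ≤ K) : F.S.Bd (kk c) := by
  obtain ⟨x, hx⟩ := bd_jj R hc
  refine ⟨x, ?_⟩
  filter_upwards [hx, R.Wok c hc] with a h0 h1
  obtain ⟨ω, hω⟩ := law_pos (F.S.P a)
  obtain ⟨-, -, -, -, h6, -⟩ := h1 ω hω
  have : (kk c a : ℝ) ≤ jj c a := by exact_mod_cast h6
  linarith

/-- the ball is a function of the piece -/
theorem fn_ball_sig {c d : ℕ} (hcd : c ≤ d) (hd2 : d ≤ 2 * c) : Sys.Fn (F.ball c) (F.sig c d) := by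
  refine Eventually.of_forall fun a ω ω' _ _ q => ?_
  have e1' := congrArg Nd.T q
  have e2' := congrArg Nd.o q
  have e1 : (F.N c a ω).T = (F.N c a ω').T := e1'
  have e2 : (fun k => (F.N c a ω).o k / 2 ^ ((d - c) * F.n a)) = fun k => (F.N c a ω').o k / 2 ^ ((d - c) * F.n a) :=
    e2'
  show ((F.N c a ω).T, fun k => (F.N c a ω).o k / 2 ^ (c * F.n a)) =
    ((F.N c a ω').T, fun k => (F.N c a ω').o k / 2 ^ (c * F.n a))
  refine Prod.ext e1 (funext fun k => ?_)
  have e3 := congrFun e2 k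
  have key : ∀ x : ℤ, x / 2 ^ (c * F.n a) = x / 2 ^ ((d - c) * F.n a) / 2 ^ ((2 * c - d) * F.n a) := by
    intro x
    rw [Int.ediv_ediv_of_nonneg (by positivity), ← pow_add, ← add_mul]
    congr 3
    omega
  show (F.N c a ω).o k / 2 ^ (c * F.n a) = (F.N c a ω').o k / 2 ^ (c * F.n a)
  rw [key, key]
  have e3' : (F.N c a ω).o k / 2 ^ ((d - c) * F.n a) = (F.N c a ω').o k / 2 ^ ((d - c) * F.n a) := e3
  rw [e3']

theorem fn_sig (c d : ℕ) : Sys.Fn (F.sig c d) (F.N c) :=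
  Eventually.of_forall fun a ω ω' _ _ q => by
    have q' : F.N c a ω = F.N c a ω' := q
    show (⟨_, _, _⟩ : Nd) = ⟨_, _, _⟩
    rw [q']

end flg

/-- **the Kakeya step with the plank of level `i` fattened to the radius of level `j`** -/
theorem stBox (h1 : E1) (h3 : E3) (h4 : E4) : StBox := by
  intro K F J θ H e W kk jj hK R i j hi hij hj2 hjK hkk
  have hiK : i ≤ K := hij.trans hjK
  have hK0 : (0:ℝ) < K := by exact_mod_cast hK
  set m := F.m (2 * i - j) with hm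
  have hWA := bxA_W R hiK
  have hsub : SubA (tubes m (F.ln i)) (fat m (W i)) := fat_sub (sub_W R hiK)
  have hfA : BxA (fat m (W i)) :=
    bxA_of_sub (Fi.tubes_bxA (bd_m F (2 * i - j) (by omega)) (lnA_ln F hiK)) hsub
  -- (K)
  have k1 := h4 F i j hK hi hij hj2 hjK F.S (Ext.refl F.S) (fat m (W i)) hsub
  have k1' : F.S.hc (F.N j) (one (S := F.S)) + 4 * j / K - F.exc j ≤
      F.S.hc (F.sig i j) (one (S := F.S)) - F.S.hc (F.sig i j) (Sys.pr (BX.lab (fat m (W i))) (F.ball i)) +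
        6 * i / K - F.S.av (BX.sz (fat m (W i))) + 3 * F.D i j := k1
  have k2 : F.S.hc (F.N j) (one (S := F.S)) = H j := (h1 F J θ H e W kk jj hK R).1 j hjK
  have k3 : F.exc j ≤ e j := h3 F j (e j) hK hjK (R.e0 j hjK) (R.exU j hjK)
  -- informations
  have tN : Tame (F.N i) := cnt_tame (R.N1 i hiK)
  have tsig : Tame (F.sig i j) := tN.mono (fn_sig i j)
  have tV : Tame (vL F W i) := cnt_tame (R.W1 i hiK)
  have tf : Tame (BX.lab (fat m (W i))) := hfA.tame
  have k4 : F.S.hc (F.sig i j) (vL F W i) ≤ F.S.hc (F.sig i j) (Sys.pr (BX.lab (fat m (W i))) (F.ball i)) := by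
    have a1 : F.S.hc (BX.lab (fat m (W i))) (vL F W i) = 0 := fat_lab hWA (F.ball i)
    rw [← hc_cond_zero tsig tf a1]
    refine hc_mono_right tsig (Eventually.of_forall fun _ _ _ _ _ q => ?_)
    have q1 := congrArg Prod.fst q
    have q2 := congrArg (fun y => y.2.2) q
    exact Prod.ext q1 q2
  have k5 : F.S.hc (F.sig i j) (one (S := F.S)) - F.S.hc (F.sig i j) (vL F W i) =
      F.S.hc (vL F W i) (one (S := F.S)) - F.S.hc (vL F W i) (F.sig i j) := by
    have a1 := mi_comm tsig tV (one (S := F.S))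
    unfold Sys.mi at a1
    rw [hc_one_right, hc_one_right] at a1
    exact a1
  have k6 := cnt_hc_le (R.W1 i hiK)
  have k6' : F.S.hc (vL F W i) (one (S := F.S)) ≤
      H i - e i - (2 * i / K - F.S.nu (kk i) - F.S.nu (jj i)) + 1 / K := k6
  -- sizes
  have hnm : F.S.nu m = ((2 * i - j : ℕ) : ℝ) / K := nu_mul F hK _
  have bkk := bd_kk R hiK
  have bjj := bd_jj R hiK
  have bm : F.S.Bd m := bd_m F (2 * i - j) (by omega)
  have k7 : F.S.av (BX.sz (fat m (W i))) = F.S.nu (kk i) + F.S.nu fun a => min (jj i a) (m a) := by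
    have bmin : F.S.Bd fun a => min (jj i a) (m a) := by
      obtain ⟨x, hx⟩ := bjj
      refine ⟨x, ?_⟩
      filter_upwards [hx] with a h0
      have : ((min (jj i a) (m a) : ℕ) : ℝ) ≤ jj i a := by exact_mod_cast min_le_left _ _
      linarith
    unfold Sys.nu
    rw [← ulim_add bkk.ub bmin.ub]
    unfold Sys.av
    refine ulim_congr ?_
    have hlt : ∀ᶠ a in (uf : Filter ℕ), kk i a ≤ m a := by
      have a1 : ulim (fun a => (kk i a : ℝ) / F.S.L a - (m a : ℝ) / F.S.L a) < 0 := by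
        rw [ulim_sub bkk.ub bm.ub]
        have : ulim (fun a => (m a : ℝ) / F.S.L a) = ((2 * i - j : ℕ) : ℝ) / K := hnm
        rw [this]
        have : ulim (fun a => (kk i a : ℝ) / F.S.L a) = F.S.nu (kk i) := rfl
        rw [this]
        linarith
      filter_upwards [ulim_lt_eventually (bkk.ub.sub bm.ub) a1, F.S.L_pos] with a h0 hL
      have hL' : (0:ℝ) < F.S.L a := by exact_mod_cast hL
      rw [← sub_div, div_lt_iff₀ hL', zero_mul] at h0
      have : (kk i a : ℝ) < m a := by linarith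
      exact_mod_cast this.le
    filter_upwards [hlt, R.Wok i hiK] with a h0 h2
    rw [← add_div]
    congr 1
    rw [← (F.S.P a).ex_const ((kk i a : ℝ) + ((min (jj i a) (m a) : ℕ) : ℝ))]
    refine (F.S.P a).ex_congr fun ω hω => ?_
    obtain ⟨-, -, g1, g2, -, -⟩ := h2 ω hω
    show ((min ((W i a).k ω) (m a) : ℕ) : ℝ) + ((min ((W i a).j ω) (m a) : ℕ) : ℝ) = _
    rw [g1, g2, min_eq_left h0]
  have k8 : (F.S.nu fun a => min (jj i a) ((2 * i - j) * F.n a)) = F.S.nu fun a => min (jj i a) (m a) := rfl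
  rw [k8]
  rw [k2, k7] at k1'
  unfold nV
  have e1 : (6:ℝ) * i / K = 4 * i / K + 2 * i / K := by ring
  linarith

end Vale.Agent.P122.H624
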