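import Vale.Agent.P122.H624.BoxA
import Vale.Agent.P122.H624.BoxB
import Vale.Agent.P122.H286.SysW

/-!
# P122 / H624 : the digits `(p, q)` are determined by the plank and the piece (helper624)
-/

set_option autoImplicit false

namespace Vale.Agent.P122.H624

open Filter Topology Finset Vale.Agent.P127 Vale.Agent.P127.Stk Vale.Agent.P127.U Vale.Agent.P127.U.Sys Vale.Agent.P122.C2
  Vale.Agent.P122.E Vale.Agent.P122.H474 Vale.Agent.P122.H518 Vale.Agent.P122.H265 Vale.Agent.P122.H540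

/-- **few values off a rare event**, relative form -/
theorem hc_int_rare2 {S : Sys} {β : Type*} {X : S.RV ℤ} {Z : S.RV β} {E : ∀ i, S.Ω i → Prop} (hE : Rare S E) {r C : ℝ}
    (hr : 0 ≤ r) (hC : 0 ≤ C) (tX : Tame X)
    (hX : ∀ᶠ i in (uf : Filter ℕ), ∀ ω ω', 0 < (S.P i).w ω → 0 < (S.P i).w ω' → Z i ω' = Z i ω →
      |(X i ω' : ℝ) - X i ω| ≤ (2:ℝ) ^ (C * S.L i))
    (h : ∀ ε : ℝ, 0 < ε → ∀ᶠ i in (uf : Filter ℕ), ∀ ω ω', 0 < (S.P i).w ω → 0 < (S.P i).w ω' →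
      ¬ E i ω → ¬ E i ω' → Z i ω' = Z i ω → |(X i ω' : ℝ) - X i ω| ≤ (2:ℝ) ^ ((r + ε) * S.L i)) :
    S.hc X Z ≤ r := by
  classical
  set b : S.RV Prop := fun i ω => E i ω with hb
  have zb : ∀ {δ : Type _} (Y : S.RV δ), S.hc b Y = 0 := by
    intro δ Y
    refine hc_zero_of_le (Real.log ((2 : ℕ) : ℝ)) (Eventually.of_forall fun i => ?_)
    refine Stk.hc_le_log (S.P i) (b i) (Y i) 2 fun ω _ => ⟨{True, False}, ?_, fun ω' _ _ => ?_⟩
    · exact Finset.card_le_two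
    · by_cases h1 : b i ω'
      · simp [h1]
      · simp [h1]
  have tb : Tame b := by
    refine ⟨1, ?_⟩
    filter_upwards [S.L_pos] with i hL
    have hL1 : (1:ℝ) ≤ S.L i := by exact_mod_cast hL
    have hl2 : 0 < Real.log 2 := Real.log_pos (by norm_num)
    rw [← stk_hc_one]
    have h1 : Stk.hc (S.P i) (b i) (fun _ => ()) ≤ Real.log ((2:ℕ):ℝ) := by
      refine Stk.hc_le_log (S.P i) (b i) _ 2 fun ω _ => ⟨{True, False}, Finset.card_le_two, fun ω' _ _ => ?_⟩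
      by_cases h1 : b i ω'
      · simp [h1]
      · simp [h1]
    refine h1.trans ?_
    unfold Sys.nm
    push_cast
    nlinarith
  have h1 := hc_le_add tX tb Z
  rw [zb Z, add_zero] at h1
  refine h1.trans ?_
  refine le_of_forall_pos_le_add fun ε hε => ?_
  refine ulim_le_const (UB.hc tX _) ?_
  obtain ⟨η, hη, hE1⟩ := hE
  have hε4 : 0 < ε / 4 := by positivity
  filter_upwards [S.nm_pos, S.L_pos, hX, h (ε / 4) hε4, hE1,
    two_rpow_small (S := S) η hη (ε / (4 * (C + 1))) (by positivity),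
    S.L_pos, S.nm_tendsto.eventually_ge_atTop (2 * Real.log 3 / (ε / 4))] with i hnm hLp hi1 hi2 hi3 hi4 _ hi5
  rw [div_le_iff₀ hnm]
  have hl2 : 0 < Real.log 2 := Real.log_pos (by norm_num)
  have hl3 : 0 < Real.log 3 := Real.log_pos (by norm_num)
  have hL1 : (1:ℝ) ≤ S.L i := by exact_mod_cast hLp
  set A : ℝ := (2:ℝ) ^ (C * S.L i) with hA
  set M : ℝ := (2:ℝ) ^ ((r + ε / 4) * S.L i) with hM
  have hA1 : (1:ℝ) ≤ A := Real.one_le_rpow (by norm_num) (by positivity)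
  have hM1 : (1:ℝ) ≤ M := Real.one_le_rpow (by norm_num) (by positivity)
  have hlog : ∀ {q : ℝ}, 1 ≤ q → Real.log ((2 * ⌊q⌋₊ + 1 : ℕ) : ℝ) ≤ Real.log 3 + Real.log q := by
    intro q hq
    rw [← Real.log_mul (by norm_num) (by linarith)]
    refine Real.log_le_log (by positivity) ?_
    push_cast
    have := Nat.floor_le (by linarith : (0:ℝ) ≤ q)
    linarith
  have hcard : ∀ (x : ℤ) {q : ℝ}, 0 ≤ q → (Finset.Icc (x - ⌊q⌋₊) (x + ⌊q⌋₊)).card = 2 * ⌊q⌋₊ + 1 := by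
    intro x q hq
    rw [Int.card_Icc]
    omega
  have hmem : ∀ {x y : ℤ} {q : ℝ}, 0 ≤ q → |(y : ℝ) - x| ≤ q → y ∈ Finset.Icc (x - (⌊q⌋₊ : ℤ)) (x + ⌊q⌋₊) := by
    intro x y q hq hxy
    rw [Finset.mem_Icc]
    have h2 : (y - x).natAbs ≤ ⌊q⌋₊ := by
      refine Nat.le_floor ?_
      rw [Nat.cast_natAbs]
      push_cast
      exact hxy
    omega
  have hkey : Stk.hc (S.P i) (X i) (Sys.pr b Z i) ≤
      (S.P i).ex fun ω => Real.log (((if E i ω then 2 * ⌊A⌋₊ + 1 else 2 * ⌊M⌋₊ + 1 : ℕ)) : ℝ) := by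
    refine PL.hc_le_exlog (S.P i) (X i) (Sys.pr b Z i)
      (fun ω => if E i ω then 2 * ⌊A⌋₊ + 1 else 2 * ⌊M⌋₊ + 1) fun ω hω => ?_
    by_cases hEω : E i ω
    · refine ⟨Finset.Icc (X i ω - (⌊A⌋₊ : ℤ)) (X i ω + ⌊A⌋₊), ?_, fun ω' hω' e => ?_⟩
      · rw [if_pos hEω, hcard _ (by linarith)]
      · exact hmem (by linarith) (hi1 ω ω' hω hω' (congrArg Prod.snd e))
    · refine ⟨Finset.Icc (X i ω - (⌊M⌋₊ : ℤ)) (X i ω + ⌊M⌋₊), ?_, fun ω' hω' e => ?_⟩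
      · rw [if_neg hEω, hcard _ (by linarith)]
      · refine hmem (by linarith) ?_
        have e1 : b i ω' = b i ω := congrArg Prod.fst e
        have e2 : Z i ω' = Z i ω := congrArg Prod.snd e
        have hEω' : ¬ E i ω' := by
          intro h3
          exact hEω (by
            have : b i ω := by rw [← e1]; exact h3
            exact this)
        exact hi2 ω ω' hω hω' hEω hEω' e2
  refine hkey.trans ?_
  have hex : ((S.P i).ex fun ω => Real.log (((if E i ω then 2 * ⌊A⌋₊ + 1 else 2 * ⌊M⌋₊ + 1 : ℕ)) : ℝ)) ≤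
      (S.P i).ex fun ω => (Real.log 3 + Real.log A) * (if E i ω then 1 else 0) + (Real.log 3 + Real.log M) := by
    refine (S.P i).ex_mono fun ω _ => ?_
    by_cases hEω : E i ω
    · rw [if_pos hEω, if_pos hEω]
      have h3 := hlog hA1
      have h4 : 0 ≤ Real.log M := Real.log_nonneg hM1
      linarith
    · rw [if_neg hEω, if_neg hEω]
      have h3 := hlog hM1
      linarith
  refine hex.trans ?_
  rw [Law.ex_add, Law.ex_const_mul, Law.ex_const]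
  have hp : (S.P i).ex (fun ω => if E i ω then (1:ℝ) else 0) = prb S E i := rfl
  rw [hp]
  have hp0 := prb_nonneg (S := S) E i
  have hp1 : prb S E i ≤ ε / (4 * (C + 1)) := hi3.trans hi4
  have hp2 : prb S E i ≤ 1 := by
    refine hi3.trans ?_
    refine Real.rpow_le_one_of_one_le_of_nonpos (by norm_num) ?_
    have : 0 ≤ η * (S.L i : ℝ) := by positivity
    linarith
  have eA : Real.log A = C * S.nm i := by
    rw [hA, log_two_pow]
    unfold Sys.nm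
    ring
  have eM : Real.log M = (r + ε / 4) * S.nm i := by
    rw [hM, log_two_pow]
    unfold Sys.nm
    ring
  rw [eA, eM]
  have h6 : Real.log 3 * prb S E i ≤ Real.log 3 := by nlinarith
  have h7 : C * S.nm i * prb S E i ≤ ε / 4 * S.nm i := by
    have h8 : C * prb S E i ≤ ε / 4 := by
      calc C * prb S E i ≤ (C + 1) * (ε / (4 * (C + 1))) := by
            refine mul_le_mul (by linarith) hp1 hp0 (by linarith)
        _ = ε / 4 := by field_simp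
    nlinarith
  have h9 : 2 * Real.log 3 ≤ ε / 4 * S.nm i := by
    rw [div_le_iff₀ hε4] at hi5
    linarith
  nlinarith [hnm]

section flg

variable {K : ℕ} {F : Flg K} {J θ H e : ℕ → ℝ} {W : ℕ → F.S.BX} {kk jj : ℕ → ℕ → ℕ}

/-- equal labels of the plank -/
theorem lab_eq {a : ℕ} {i : ℕ} {ω ω' : F.S.Ω a}
    (h : (W i a).l ω = F.ln i a ω ∧ |(W i a).θ ω| ≤ 4 ∧ (W i a).k ω = kk i a ∧ (W i a).j ω = jj i a ∧ kk i a ≤ jj i a ∧
      jj i a ≤ i * F.n a)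
    (h' : (W i a).l ω' = F.ln i a ω' ∧ |(W i a).θ ω'| ≤ 4 ∧ (W i a).k ω' = kk i a ∧ (W i a).j ω' = jj i a ∧
      kk i a ≤ jj i a ∧ jj i a ≤ i * F.n a)
    (q : (W i a).lab ω' = (W i a).lab ω) :
    (|co (qa (jj i a - kk i a) ((W i a).θ ω)) (fun k => (F.ln i a ω').1 k - (F.ln i a ω).1 k) 0| ≤ (1 / 2 : ℝ) ^ kk i a ∧
     |co (qa (jj i a - kk i a) ((W i a).θ ω)) (fun k => (F.ln i a ω').1 k - (F.ln i a ω).1 k) 1| ≤ (1 / 2 : ℝ) ^ jj i a) ∧
    (|co (qa (jj i a - kk i a) ((W i a).θ ω)) (fun k => (F.ln i a ω').2 k - (F.ln i a ω).2 k) 0| ≤ (1 / 2 : ℝ) ^ kk i a ∧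
     |co (qa (jj i a - kk i a) ((W i a).θ ω)) (fun k => (F.ln i a ω').2 k - (F.ln i a ω).2 k) 1| ≤ (1 / 2 : ℝ) ^ jj i a) := by
  obtain ⟨g1, -, g2, g3, -, -⟩ := h
  obtain ⟨g1', -, g2', g3', -, -⟩ := h'
  have q' : lab ((W i a).θ ω') ((W i a).k ω') ((W i a).j ω') ((W i a).l ω') =
    lab ((W i a).θ ω) ((W i a).k ω) ((W i a).j ω) ((W i a).l ω) := q
  rw [g1, g2, g3, g1', g2', g3'] at q'
  unfold lab at q'
  simp only [Prod.mk.injEq, true_and] at q'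
  obtain ⟨q1, q2, q3⟩ := q'
  have hqa : qa (jj i a - kk i a) ((W i a).θ ω') = qa (jj i a - kk i a) ((W i a).θ ω) := by
    unfold qa
    rw [q1]
  rw [hqa] at q2 q3
  unfold fkj at q2 q3
  simp only [Prod.mk.injEq] at q2 q3
  refine ⟨⟨?_, ?_⟩, ⟨?_, ?_⟩⟩
  · rw [co_sub]
    exact fl1_close q2.1
  · rw [co_sub]
    exact fl1_close q2.2
  · rw [co_sub]
    exact fl1_close q3.1
  · rw [co_sub]
    exact fl1_close q3.2

theorem floor_dist (x y : ℝ) : |((⌊x⌋ : ℤ) : ℝ) - ((⌊y⌋ : ℤ) : ℝ)| ≤ |x - y| + 1 := by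
  have h1 := Int.floor_le x
  have h2 := Int.lt_floor_add_one x
  have h3 := Int.floor_le y
  have h4 := Int.lt_floor_add_one y
  rw [abs_le]
  have h5 := le_abs_self (x - y)
  have h6 := neg_abs_le (x - y)
  constructor <;> linarith

/-- equal pieces: the offsets are close -/
theorem div_close {a b : ℤ} {m : ℕ} (h : a / 2 ^ m = b / 2 ^ m) : |(a : ℝ) - b| ≤ 2 ^ m := by
  have hp : (0:ℤ) < 2 ^ m := by positivity
  have h1 := Int.ediv_mul_le a hp.ne'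
  have h2 := Int.lt_ediv_add_one_mul_self a hp
  have h3 := Int.ediv_mul_le b hp.ne'
  have h4 := Int.lt_ediv_add_one_mul_self b hp
  rw [h] at h1 h2
  have h5 : |a - b| ≤ 2 ^ m := by
    rw [abs_le]
    constructor <;> nlinarith
  exact_mod_cast h5

/-- equal balls: the fractional parts -/
theorem fract_sub_of {a b : ℤ} {m : ℕ} (h : a / 2 ^ m = b / 2 ^ m) :
    Int.fract ((a : ℝ) / 2 ^ m) - Int.fract ((b : ℝ) / 2 ^ m) = ((a : ℝ) - b) / 2 ^ m := by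
  unfold Int.fract
  rw [H286.floor_div_pow, H286.floor_div_pow, h]
  ring

theorem pow_mul_half {x y z : ℕ} (h : x = y + z) : (2:ℝ) ^ x * (1 / 2) ^ z = 2 ^ y := by
  rw [h, pow_add, mul_assoc, ← mul_pow]
  norm_num

/-- the numbers -/
theorem num (hK : 1 ≤ K) (R : RegA F J θ H e W kk jj) {i j u : ℕ} (hij : i ≤ j) (hj2 : j ≤ 2 * i)
    (hjK : j ≤ K) (hiu : i + u ≤ j) {c1 B D : ℝ} (hc1 : 0 < c1) (hB : 0 ≤ B) (hD : 0 ≤ D)
    (near : ((j:ℝ) - i) / K ≤ c1 / 2) (hα : |nα F jj i - ((i:ℝ) + u) / K| ≤ 1 / K) {ε : ℝ} (hε : 0 < ε) :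
    ∀ᶠ a in (uf : Filter ℕ), (2:ℝ) ^ ((i - u) * F.n a) * (2 * (1 / 2 : ℝ) ^ jj i a +
      B * (2:ℝ) ^ (-(c1 / 2 * F.S.L a)) * (2 * (D * (1 / 2 : ℝ) ^ ((2 * i - j) * F.n a)))) + 1 ≤
        (2:ℝ) ^ ((1 / K + ε) * F.S.L a) := by
  have hK0 : (0:ℝ) < K := by exact_mod_cast hK
  have hiK : i ≤ K := hij.trans hjK
  have hui : u ≤ i := by omega
  have bjj := bd_jj R hiK
  have h1 : ((i:ℝ) - u) / K - 1 / K ≤ F.S.nu (jj i) := by
    have h2 := (abs_le.1 hα).2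
    unfold nα at h2
    have e1 : (2:ℝ) * i / K = ((i:ℝ) + u) / K + ((i:ℝ) - u) / K := by ring
    linarith
  have h2 : ((i:ℝ) - u) / K - 1 / K - ε / 2 < ulim fun a => (jj i a : ℝ) / F.S.L a := by
    have : F.S.nu (jj i) = ulim fun a => (jj i a : ℝ) / F.S.L a := rfl
    rw [← this]
    linarith
  filter_upwards [lt_ulim_eventually bjj.ub h2, F.S.L_pos, H286.two_pow_eventually F.S (half_pos hε) (2 + 2 * (B * D) + 1)]
    with a h3 hL h4
  have hL' : (0:ℝ) < F.S.L a := by exact_mod_cast hL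
  have eL : (F.S.L a : ℝ) = K * F.n a := by exact_mod_cast F.L_eq a
  rw [lt_div_iff₀ hL'] at h3
  -- first term
  have g1 : (2:ℝ) ^ ((i - u) * F.n a) * (1 / 2 : ℝ) ^ jj i a ≤ (2:ℝ) ^ ((1 / K + ε / 2) * F.S.L a) := by
    rw [one_div, inv_pow, ← div_eq_mul_inv, ← Real.rpow_natCast, ← Real.rpow_natCast, ← Real.rpow_sub (by norm_num)]
    refine Real.rpow_le_rpow_of_exponent_le (by norm_num) ?_
    push_cast [Nat.cast_sub hui]
    have e2 : (((i:ℝ) - u) / K - 1 / K - ε / 2) * F.S.L a = ((i:ℝ) - u) * F.n a - (1 / K + ε / 2) * F.S.L a := by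
      rw [eL]
      field_simp
      ring
    linarith
  -- second term
  have g2 : (2:ℝ) ^ ((i - u) * F.n a) * ((2:ℝ) ^ (-(c1 / 2 * F.S.L a)) * (1 / 2 : ℝ) ^ ((2 * i - j) * F.n a)) ≤ 1 := by
    rw [one_div, inv_pow, ← Real.rpow_natCast, ← Real.rpow_natCast, ← Real.rpow_neg (by norm_num),
      ← Real.rpow_add (by norm_num), ← Real.rpow_add (by norm_num)]
    refine Real.rpow_le_one_of_one_le_of_nonpos (by norm_num) ?_
    push_cast [Nat.cast_sub hui, Nat.cast_sub hj2]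
    have e3 : ((j:ℝ) - i) * F.n a ≤ c1 / 2 * F.S.L a := by
      have h5 := mul_le_mul_of_nonneg_right near hL'.le
      have e4 : ((j:ℝ) - i) / K * F.S.L a = ((j:ℝ) - i) * F.n a := by
        rw [eL]
        field_simp
      linarith
    have h6 : (0:ℝ) ≤ (u:ℝ) * F.n a := by positivity
    nlinarith
  have hp : (1:ℝ) ≤ (2:ℝ) ^ ((1 / K + ε / 2) * F.S.L a) := Real.one_le_rpow (by norm_num) (by positivity)
  have g3 : (2:ℝ) ^ ((i - u) * F.n a) * (2 * (1 / 2 : ℝ) ^ jj i a +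
      B * (2:ℝ) ^ (-(c1 / 2 * F.S.L a)) * (2 * (D * (1 / 2 : ℝ) ^ ((2 * i - j) * F.n a)))) =
      2 * ((2:ℝ) ^ ((i - u) * F.n a) * (1 / 2 : ℝ) ^ jj i a) + 2 * (B * D) *
        ((2:ℝ) ^ ((i - u) * F.n a) * ((2:ℝ) ^ (-(c1 / 2 * F.S.L a)) * (1 / 2 : ℝ) ^ ((2 * i - j) * F.n a))) := by ring
  rw [g3]
  have hBD : 0 ≤ 2 * (B * D) := by positivity
  have g4 := mul_le_mul_of_nonneg_left g2 hBD
  have g5 : (2 + 2 * (B * D) + 1) * (2:ℝ) ^ ((1 / K + ε / 2) * F.S.L a) ≤ (2:ℝ) ^ ((1 / K + ε) * F.S.L a) := by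
    have e5 : (2:ℝ) ^ ((1 / K + ε) * F.S.L a) = (2:ℝ) ^ (ε / 2 * F.S.L a) * (2:ℝ) ^ ((1 / K + ε / 2) * F.S.L a) := by
      rw [← Real.rpow_add (by norm_num)]
      congr 1
      ring
    rw [e5]
    exact mul_le_mul_of_nonneg_right h4 (by positivity)
  nlinarith

/-- **the digits `(p, q)` are determined by the plank and the piece** -/
theorem pq_le (hK : 1 ≤ K) (R : RegA F J θ H e W kk jj) {i j u : ℕ} (hi : 1 ≤ i) (hij : i ≤ j) (hj2 : j ≤ 2 * i)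
    (hjK : j ≤ K) (hiu : i + u ≤ j) {c1 B : ℝ} (hc1 : 0 < c1) (hB : 0 ≤ B)
    (near : ((j:ℝ) - i) / K ≤ c1 / 2) (hα : |nα F jj i - ((i:ℝ) + u) / K| ≤ 1 / K) {ψ : ℕ → Nd → ℝ}
    (fr : Rare F.S fun a ω => B * (2 : ℝ) ^ (-(c1 / 2 * F.S.L a)) < |Real.sin ((W i a).θ ω - ψ a (F.sig i j a ω))|) :
    F.S.hc (Sys.pr (pD F i j u ψ) (qD F i j (i - u) ψ)) (Sys.pr (vL F W i) (F.sig i j)) ≤ 2 / K := by
  have hK0 : (0:ℝ) < K := by exact_mod_cast hK
  have hiK : i ≤ K := hij.trans hjK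
  have hui : u ≤ i := by omega
  have tN : Tame (F.N i) := cnt_tame (R.N1 i hiK)
  set Z := Sys.pr (vL F W i) (F.sig i j) with hZ
  have fp : Sys.Fn (pD F i j u ψ) (F.N i) := Eventually.of_forall fun a ω ω' _ _ q => by
    have q' : F.N i a ω = F.N i a ω' := q
    unfold pD Flg.sig
    rw [q']
  have fq : Sys.Fn (qD F i j (i - u) ψ) (F.N i) := Eventually.of_forall fun a ω ω' _ _ q => by
    have q' : F.N i a ω = F.N i a ω' := q
    unfold qD Flg.sig Flg.Y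
    rw [q']
  have tp : Tame (pD F i j u ψ) := tN.mono fp
  have tq : Tame (qD F i j (i - u) ψ) := tN.mono fq
  -- data of two outcomes with the same condition
  have key : ∀ᶠ a in (uf : Filter ℕ), ∀ ω ω', 0 < (F.S.P a).w ω → 0 < (F.S.P a).w ω' → Z a ω' = Z a ω →
      ∃ d1 d2 : Fin 2 → ℝ,
        ((pD F i j u ψ a ω' : ℝ) - pD F i j u ψ a ω ≤ (2:ℝ) ^ ((i - u) * F.n a) * |fn (ψ a (F.sig i j a ω)) d1| + 1 ∧
         -((2:ℝ) ^ ((i - u) * F.n a) * |fn (ψ a (F.sig i j a ω)) d1| + 1) ≤ (pD F i j u ψ a ω' : ℝ) - pD F i j u ψ a ω) ∧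
        ((qD F i j (i - u) ψ a ω' : ℝ) - qD F i j (i - u) ψ a ω ≤
            (2:ℝ) ^ ((i - u) * F.n a) * |fn (ψ a (F.sig i j a ω)) d2| + 1 ∧
         -((2:ℝ) ^ ((i - u) * F.n a) * |fn (ψ a (F.sig i j a ω)) d2| + 1) ≤
            (qD F i j (i - u) ψ a ω' : ℝ) - qD F i j (i - u) ψ a ω) ∧
        (∀ k, |d1 k| ≤ (1 + 3 * F.C) * (1 / 2 : ℝ) ^ ((2 * i - j) * F.n a)) ∧
        (∀ k, |d2 k| ≤ (1 + 3 * F.C) * (1 / 2 : ℝ) ^ ((2 * i - j) * F.n a)) ∧
        (|co (qa (jj i a - kk i a) ((W i a).θ ω)) d1 0| ≤ (1 / 2 : ℝ) ^ kk i a ∧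
          |co (qa (jj i a - kk i a) ((W i a).θ ω)) d1 1| ≤ (1 / 2 : ℝ) ^ jj i a) ∧
        (|co (qa (jj i a - kk i a) ((W i a).θ ω)) d2 0| ≤ (1 / 2 : ℝ) ^ kk i a ∧
          |co (qa (jj i a - kk i a) ((W i a).θ ω)) d2 1| ≤ (1 / 2 : ℝ) ^ jj i a) ∧ kk i a ≤ jj i a := by
    filter_upwards [R.Wok i hiK] with a hW ω ω' hω hω' q
    have hC : 0 ≤ F.C := Chn.C_nonneg (F.slp a)
    have qV : vL F W i a ω' = vL F W i a ω := congrArg Prod.fst q
    have qS : F.sig i j a ω' = F.sig i j a ω := congrArg Prod.snd q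
    have qL : (W i a).lab ω' = (W i a).lab ω := congrArg Prod.fst qV
    have qB : F.ball i a ω' = F.ball i a ω := congrArg Prod.snd qV
    have hl := lab_eq (F := F) (W := W) (kk := kk) (jj := jj) (hW ω hω) (hW ω' hω') qL
    have so' := congrArg Nd.o qS
    have so : ∀ k, (F.N i a ω').o k / 2 ^ ((j - i) * F.n a) = (F.N i a ω).o k / 2 ^ ((j - i) * F.n a) :=
      fun k => congrFun so' k
    have st' := congrArg Nd.τ qS
    have st : ∀ k, (F.N i a ω').τ k / 2 ^ ((j - i) * F.n a) = (F.N i a ω).τ k / 2 ^ ((j - i) * F.n a) :=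
      fun k => congrFun st' k
    have bo' := congrArg Prod.snd qB
    have bo : ∀ k, (F.N i a ω').o k / 2 ^ (i * F.n a) = (F.N i a ω).o k / 2 ^ (i * F.n a) :=
      fun k => congrFun bo' k
    have hn : (i * F.n a) = ((j - i) * F.n a) + ((2 * i - j) * F.n a) := by
      rw [← add_mul]
      congr 1
      omega
    refine ⟨fun k => (F.ln i a ω').1 k - (F.ln i a ω).1 k, fun k => (F.ln i a ω').2 k - (F.ln i a ω).2 k, ?_, ?_, ?_, ?_,
      hl.1, hl.2, (hW ω hω).2.2.2.2.1⟩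
    · -- p
      have e1 : ∀ k, (F.ln i a ω').1 k - (F.ln i a ω).1 k = (((F.N i a ω').o k : ℝ) - (F.N i a ω).o k) / 2 ^ (i * F.n a) :=
        fun k => fract_sub_of (bo k)
      have e2 : fn (ψ a (F.sig i j a ω)) (ov (F.N i a ω')) / 2 ^ (u * F.n a) -
          fn (ψ a (F.sig i j a ω)) (ov (F.N i a ω)) / 2 ^ (u * F.n a) =
          (2:ℝ) ^ ((i - u) * F.n a) * fn (ψ a (F.sig i j a ω)) (fun k => (F.ln i a ω').1 k - (F.ln i a ω).1 k) := by
        have e3 : (2:ℝ) ^ (i * F.n a) = 2 ^ ((i - u) * F.n a) * 2 ^ (u * F.n a) := by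
          rw [← pow_add, ← add_mul, Nat.sub_add_cancel hui]
        unfold fn ov
        simp only [e1]
        rw [e3]
        field_simp
        ring
      have e4 := floor_dist (fn (ψ a (F.sig i j a ω)) (ov (F.N i a ω')) / 2 ^ (u * F.n a))
        (fn (ψ a (F.sig i j a ω)) (ov (F.N i a ω)) / 2 ^ (u * F.n a))
      rw [e2, abs_mul, abs_of_pos (by positivity : (0:ℝ) < 2 ^ ((i - u) * F.n a))] at e4
      have e5 : (pD F i j u ψ a ω' : ℝ) = (⌊fn (ψ a (F.sig i j a ω)) (ov (F.N i a ω')) / 2 ^ (u * F.n a)⌋ : ℤ) := by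
        unfold pD pdg
        rw [qS]
      have e6 : (pD F i j u ψ a ω : ℝ) = (⌊fn (ψ a (F.sig i j a ω)) (ov (F.N i a ω)) / 2 ^ (u * F.n a)⌋ : ℤ) := rfl
      rw [e5, e6]
      exact ⟨(abs_le.1 e4).2, (abs_le.1 e4).1⟩
    · -- q
      have e2 : (2:ℝ) ^ ((i - u) * F.n a) * fn (ψ a (F.sig i j a ω)) (F.s a i (F.Y i a ω')) -
          (2:ℝ) ^ ((i - u) * F.n a) * fn (ψ a (F.sig i j a ω)) (F.s a i (F.Y i a ω)) =
          (2:ℝ) ^ ((i - u) * F.n a) * fn (ψ a (F.sig i j a ω)) (fun k => (F.ln i a ω').2 k - (F.ln i a ω).2 k) := by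
        have e3 : ∀ k, (F.ln i a ω').2 k = F.s a i (F.Y i a ω') k := fun _ => rfl
        have e3' : ∀ k, (F.ln i a ω).2 k = F.s a i (F.Y i a ω) k := fun _ => rfl
        unfold fn
        simp only [e3, e3']
        ring
      have e4 := floor_dist ((2:ℝ) ^ ((i - u) * F.n a) * fn (ψ a (F.sig i j a ω)) (F.s a i (F.Y i a ω')))
        ((2:ℝ) ^ ((i - u) * F.n a) * fn (ψ a (F.sig i j a ω)) (F.s a i (F.Y i a ω)))
      rw [e2, abs_mul, abs_of_pos (by positivity : (0:ℝ) < 2 ^ ((i - u) * F.n a))] at e4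
      have e5 : (qD F i j (i - u) ψ a ω' : ℝ) =
          (⌊(2:ℝ) ^ ((i - u) * F.n a) * fn (ψ a (F.sig i j a ω)) (F.s a i (F.Y i a ω'))⌋ : ℤ) := by
        unfold qD
        rw [qS]
      have e6 : (qD F i j (i - u) ψ a ω : ℝ) =
          (⌊(2:ℝ) ^ ((i - u) * F.n a) * fn (ψ a (F.sig i j a ω)) (F.s a i (F.Y i a ω))⌋ : ℤ) := rfl
      rw [e5, e6]
      exact ⟨(abs_le.1 e4).2, (abs_le.1 e4).1⟩
    · intro k
      have e1 : (F.ln i a ω').1 k - (F.ln i a ω).1 k = (((F.N i a ω').o k : ℝ) - (F.N i a ω).o k) / 2 ^ (i * F.n a) :=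
        fract_sub_of (bo k)
      show |(F.ln i a ω').1 k - (F.ln i a ω).1 k| ≤ _
      rw [e1, abs_div, abs_of_pos (by positivity : (0:ℝ) < 2 ^ (i * F.n a)), div_le_iff₀ (by positivity)]
      have e2 := div_close (so k)
      have e3 : (1 / 2 : ℝ) ^ ((2 * i - j) * F.n a) * 2 ^ (i * F.n a) = 2 ^ ((j - i) * F.n a) := by
        rw [mul_comm]
        exact pow_mul_half hn
      rw [mul_assoc, e3]
      have : (0:ℝ) ≤ 3 * F.C * 2 ^ ((j - i) * F.n a) := by positivity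
      linarith
    · intro k
      show |(F.ln i a ω').2 k - (F.ln i a ω).2 k| ≤ _
      have e1 := (F.slp a).lip i (F.Y i a ω') (F.Y i a ω) k hiK ((chn F a ω' hω').cap i hiK) ((chn F a ω hω).cap i hiK)
      have e2 : |(F.ln i a ω').2 k - (F.ln i a ω).2 k| ≤ F.C * (|((F.Y i a ω') 0 : ℝ) - (F.Y i a ω) 0| +
          |((F.Y i a ω') 1 : ℝ) - (F.Y i a ω) 1| + 1) / 2 ^ (i * F.n a) := e1
      refine e2.trans ?_
      rw [div_le_iff₀ (by positivity)]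
      have e3 : (1 / 2 : ℝ) ^ ((2 * i - j) * F.n a) * 2 ^ (i * F.n a) = 2 ^ ((j - i) * F.n a) := by
        rw [mul_comm]
        exact pow_mul_half hn
      rw [mul_assoc, e3]
      have e4 : |((F.Y i a ω') 0 : ℝ) - (F.Y i a ω) 0| ≤ 2 ^ ((j - i) * F.n a) := div_close (st 0)
      have e5 : |((F.Y i a ω') 1 : ℝ) - (F.Y i a ω) 1| ≤ 2 ^ ((j - i) * F.n a) := div_close (st 1)
      have e6 : (1:ℝ) ≤ 2 ^ ((j - i) * F.n a) := one_le_pow₀ (by norm_num)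
      have e7 : F.C * (|((F.Y i a ω') 0 : ℝ) - (F.Y i a ω) 0| + |((F.Y i a ω') 1 : ℝ) - (F.Y i a ω) 1| + 1) ≤
          F.C * (3 * 2 ^ ((j - i) * F.n a)) := mul_le_mul_of_nonneg_left (by linarith) hC
      have e8 : (0:ℝ) ≤ 2 ^ ((j - i) * F.n a) := by positivity
      linarith
  have hC0 : 0 ≤ F.C := Chn.C_nonneg (F.slp 0)
  have crude : ∀ᶠ a in (uf : Filter ℕ), ∀ (x : ℝ) (d : Fin 2 → ℝ),
      (∀ k, |d k| ≤ (1 + 3 * F.C) * (1 / 2 : ℝ) ^ ((2 * i - j) * F.n a)) →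
      (2:ℝ) ^ ((i - u) * F.n a) * |fn x d| + 1 ≤ (2:ℝ) ^ ((2:ℝ) * F.S.L a) := by
    filter_upwards [H286.two_pow_eventually F.S one_pos (2 * (1 + 3 * F.C) + 1)] with a h4 x d hd
    have h5 : |fn x d| ≤ 2 * (1 + 3 * F.C) := by
      have h6 : ∀ k, |d k| ≤ 1 + 3 * F.C := fun k => (hd k).trans (by
        have : (1 / 2 : ℝ) ^ ((2 * i - j) * F.n a) ≤ 1 := pow_le_one₀ (by norm_num) (by norm_num)
        nlinarith)
      have := abs_fn_le x d
      linarith [h6 0, h6 1]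
    have h7 : (2:ℝ) ^ ((i - u) * F.n a) ≤ (2:ℝ) ^ ((1:ℝ) * F.S.L a) := by
      rw [← Real.rpow_natCast]
      refine Real.rpow_le_rpow_of_exponent_le (by norm_num) ?_
      rw [one_mul]
      have : (i - u) * F.n a ≤ F.S.L a := by
        rw [F.L_eq]
        exact Nat.mul_le_mul_right _ (by omega)
      exact_mod_cast this
    have h8 : (1:ℝ) ≤ (2:ℝ) ^ ((1:ℝ) * F.S.L a) := Real.one_le_rpow (by norm_num) (by positivity)
    have e5 : (2:ℝ) ^ ((2:ℝ) * F.S.L a) = (2:ℝ) ^ ((1:ℝ) * F.S.L a) * (2:ℝ) ^ ((1:ℝ) * F.S.L a) := by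
      rw [← Real.rpow_add (by norm_num)]
      congr 1
      ring
    rw [e5]
    have h9 : (2:ℝ) ^ ((i - u) * F.n a) * |fn x d| ≤ (2:ℝ) ^ ((1:ℝ) * F.S.L a) * (2 * (1 + 3 * F.C)) :=
      mul_le_mul h7 h5 (abs_nonneg _) (by positivity)
    nlinarith
  have hr : (0:ℝ) ≤ 1 / K := by positivity
  -- `p`
  have hp : F.S.hc (pD F i j u ψ) Z ≤ 1 / K := by
    refine hc_int_rare2 fr hr (by norm_num : (0:ℝ) ≤ 2) tp ?_ ?_
    · filter_upwards [key, crude] with a h1 h2 ω ω' hω hω' q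
      obtain ⟨d1, d2, ⟨p1, p2⟩, -, b1, -⟩ := h1 ω ω' hω hω' q
      have h3 := h2 (ψ a (F.sig i j a ω)) d1 b1
      rw [abs_le]
      constructor <;> linarith
    · intro ε hε
      filter_upwards [key, num hK R hij hj2 hjK hiu hc1 hB (by positivity : (0:ℝ) ≤ 1 + 3 * F.C) near hα hε]
        with a h1 h2 ω ω' hω hω' g g' q
      obtain ⟨d1, d2, ⟨p1, p2⟩, -, b1, -, ⟨c1', c2'⟩, -, hkj⟩ := h1 ω ω' hω hω' q
      push Not at g
      have h3 := fn_box (ψ := ψ a (F.sig i j a ω)) hkj (by positivity) c1' c2' b1 g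
      have h4 := mul_le_mul_of_nonneg_left h3 (by positivity : (0:ℝ) ≤ 2 ^ ((i - u) * F.n a))
      rw [abs_le]
      constructor <;> linarith
  have hq : F.S.hc (qD F i j (i - u) ψ) (Sys.pr (pD F i j u ψ) Z) ≤ 1 / K := by
    refine (hc_le_cond tq _ _).trans ?_
    refine hc_int_rare2 fr hr (by norm_num : (0:ℝ) ≤ 2) tq ?_ ?_
    · filter_upwards [key, crude] with a h1 h2 ω ω' hω hω' q
      obtain ⟨d1, d2, -, ⟨p1, p2⟩, -, b1, -⟩ := h1 ω ω' hω hω' q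
      have h3 := h2 (ψ a (F.sig i j a ω)) d2 b1
      rw [abs_le]
      constructor <;> linarith
    · intro ε hε
      filter_upwards [key, num hK R hij hj2 hjK hiu hc1 hB (by positivity : (0:ℝ) ≤ 1 + 3 * F.C) near hα hε]
        with a h1 h2 ω ω' hω hω' g g' q
      obtain ⟨d1, d2, -, ⟨p1, p2⟩, -, b1, -, ⟨c1', c2'⟩, hkj⟩ := h1 ω ω' hω hω' q
      push Not at g
      have h3 := fn_box (ψ := ψ a (F.sig i j a ω)) hkj (by positivity) c1' c2' b1 g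
      have h4 := mul_le_mul_of_nonneg_left h3 (by positivity : (0:ℝ) ≤ 2 ^ ((i - u) * F.n a))
      rw [abs_le]
      constructor <;> linarith
  have hpair := hc_pair tp tq Z
  have e0 : (2:ℝ) / K = 1 / K + 1 / K := by ring
  rw [hpair, e0]
  exact add_le_add hp hq

end flg

end Vale.Agent.P122.H624
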