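import Vale.Agent.P122.H624.Wide
import Vale.Agent.P122.H465.E9Defs

/-!
# P122 / H624 : the box step of (P) (helper624)

`boxP : E3 → E4 → BoxP (1 / 4) 8` (of `H465/E9Defs`).
-/

set_option autoImplicit false

namespace Vale.Agent.P122.H624

open Filter Topology Finset Vale.Agent.P127 Vale.Agent.P127.Stk Vale.Agent.P127.U Vale.Agent.P127.U.Sys Vale.Agent.P122.C2
  Vale.Agent.P122.E Vale.Agent.P122.H474 Vale.Agent.P122.H518 Vale.Agent.P122.H265 Vale.Agent.P122.H540 Vale.Agent.P122.H465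

theorem nu_min {S : Sys} {x y : ℕ → ℕ} (hx : S.Bd x) (hy : S.Bd y) :
    S.nu (fun a => min (x a) (y a)) = min (S.nu x) (S.nu y) := by
  refine ulim_eq ?_
  have h := hx.ub.tendsto.min hy.ub.tendsto
  refine h.congr' ?_
  filter_upwards [S.L_pos] with a ha
  have hL : (0:ℝ) ≤ S.L a := Nat.cast_nonneg _
  rw [min_div_div_right hL]
  push_cast
  rfl

/-- the thin plank is wide in the other direction -/
theorem wide {K : ℕ} {F : Flg K} {J θ H e : ℕ → ℝ} {W : ℕ → F.S.BX} {kk jj : ℕ → ℕ → ℕ} (hK : 1 ≤ K)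
    (R : RegA F J θ H e W kk jj) {κ c1 : ℝ} (hκ : κ ≤ 1 / 4) (hc1 : 0 < c1) (hC : 8 / K ≤ c1) {i j : ℕ} (hij : i ≤ j)
    (hj2 : j ≤ 2 * i) (hjK : j ≤ K) (near : ((j:ℝ) - i) / K ≤ κ * c1) (ht : Thin F e jj κ c1 i) :
    F.S.nu (kk i) < ((2 * i - j : ℕ) : ℝ) / K := by
  have hK0 : (0:ℝ) < K := by exact_mod_cast hK
  have h1 := stExc F J θ H e W kk jj hK R i (hij.trans hjK)
  obtain ⟨h2, h3⟩ := ht
  unfold nα at h3
  have h4 : (1:ℝ) / K ≤ c1 / 8 := by
    have : (8:ℝ) / K = 8 * (1 / K) := by ring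
    linarith
  have e1 : (((2 * i - j : ℕ)) : ℝ) / K = (i:ℝ) / K - ((j:ℝ) - i) / K := by
    rw [Nat.cast_sub hj2]
    push_cast
    ring
  rw [e1]
  have h5 : κ * e i ≤ 1 / 4 * e i := mul_le_mul_of_nonneg_right hκ (by linarith)
  have h6 : κ * c1 ≤ 1 / 4 * c1 := mul_le_mul_of_nonneg_right hκ hc1.le
  linarith

/-- **box step of (P)** -/
theorem boxP (h3 : E3) (h4 : E4) : BoxP (1 / 4) 8 := by
  intro K κ F J θ H e W kk jj c1 φ JF ψ i j u hκ X hα
  have hK := X.K1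
  have hK0 : (0:ℝ) < K := by exact_mod_cast hK
  have R := X.reg.toRegA
  have hj2 : j ≤ 2 * i := X.j2.le
  have hi : 1 ≤ i := by
    have := X.j2
    have := X.ij
    omega
  have hij := X.ij
  have hjK := X.jK
  have hiK := hij.trans hjK
  have hiu := X.iu
  have hw := wide hK R hκ X.c0 X.cK hij hj2 hjK X.near (X.thin i (by omega) hij)
  have k1 := stBox e1 h3 h4 F J θ H e W kk jj hK R i j hi hij hj2 hjK hw
  have near2 : ((j:ℝ) - i) / K ≤ c1 / 2 := by
    have h6 : κ * c1 ≤ 1 / 4 * c1 := mul_le_mul_of_nonneg_right hκ X.c0.le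
    have := X.near
    have := X.c0
    linarith
  have fr : Rare F.S fun a ω => 1 * (2 : ℝ) ^ (-(c1 / 2 * F.S.L a)) <
      |Real.sin ((W i a).θ ω - ψ a (F.sig i j a ω))| := by
    simpa only [one_mul] using X.fr
  have k2 := pq_le hK R hi hij hj2 hjK hiu X.c0 zero_le_one near2 hα fr
  have tN : Tame (F.N i) := cnt_tame (R.N1 i hiK)
  have tV : Tame (vL F W i) := cnt_tame (R.W1 i hiK)
  have tpq : Tame (Sys.pr (pD F i j u ψ) (qD F i j (i - u) ψ)) := by
    refine tN.mono (Eventually.of_forall fun a ω ω' _ _ q => ?_)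
    have q' : F.N i a ω = F.N i a ω' := q
    show (_, _) = (_, _)
    unfold pD qD Flg.sig Flg.Y
    rw [q']
  have k3 := hc_le_add tpq tV (F.sig i j)
  have k4 : F.S.hc (Sys.pr (dp F ψ i j u) (dq F ψ i j u)) (F.sig i j) =
      F.S.hc (Sys.pr (pD F i j u ψ) (qD F i j (i - u) ψ)) (F.sig i j) := rfl
  have bjj := bd_jj R hiK
  have bm : F.S.Bd (fun a => (2 * i - j) * F.n a) := bd_m F (2 * i - j) (by omega)
  have k5 := nu_min bjj bm
  have hnm : F.S.nu (fun a => (2 * i - j) * F.n a) = ((2 * i - j : ℕ) : ℝ) / K := nu_mul F hK _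
  rw [hnm] at k5
  have e2 : (((2 * i - j : ℕ)) : ℝ) / K = (i:ℝ) / K - ((j:ℝ) - i) / K := by
    rw [Nat.cast_sub hj2]
    push_cast
    ring
  have k6 : F.S.nu (jj i) - min (F.S.nu (jj i)) (((2 * i - j : ℕ) : ℝ) / K) ≤ ((j:ℝ) - i - u) / K + 1 / K := by
    have h7 := (abs_le.1 hα).1
    unfold nα at h7
    have e3 : ((i:ℝ) + u) / K = i / K + u / K := by ring
    have e4 : ((j:ℝ) - i - u) / K = ((j:ℝ) - i) / K - u / K := by ring
    have h8 : (0:ℝ) ≤ ((j:ℝ) - i) / K - u / K := by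
      rw [← e4]
      refine div_nonneg ?_ hK0.le
      have : ((i + u : ℕ) : ℝ) ≤ j := by exact_mod_cast hiu
      push_cast at this
      linarith
    have h9 : (0:ℝ) < 1 / K := by positivity
    rcases min_choice (F.S.nu (jj i)) (((2 * i - j : ℕ) : ℝ) / K) with h | h
    · rw [h, e4]
      linarith
    · rw [h, e2, e4]
      rw [e3] at h7
      have e5 : (2:ℝ) * i / K = i / K + i / K := by ring
      linarith
  rw [k5] at k1
  rw [k4]
  have h9 : (0:ℝ) < 1 / K := by positivity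
  have e6 : (8:ℝ) / K = 8 * (1 / K) := by ring
  have e7 : (2:ℝ) / K = 2 * (1 / K) := by ring
  rw [e6]
  rw [e7] at k2
  linarith

end Vale.Agent.P122.H624
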