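import Vale.Agent.P122.H624.BoxC

/-!
# P122 / H624 : excess of a plank is at most `log |W| / |S|` (helper624)
-/

set_option autoImplicit false

namespace Vale.Agent.P122.H624

open Filter Topology Finset Vale.Agent.P127 Vale.Agent.P127.Stk Vale.Agent.P127.U Vale.Agent.P127.U.Sys Vale.Agent.P122.C2
  Vale.Agent.P122.E Vale.Agent.P122.H474 Vale.Agent.P122.H518 Vale.Agent.P122.H265 Vale.Agent.P122.H540

theorem fl1_div {k N : ℕ} (h : k ≤ N) (x : ℝ) : fl1 k x = fl1 N x / 2 ^ (N - k) := by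
  unfold fl1
  have e : (2:ℝ) ^ k * x = (2 ^ N * x) / ((2 ^ (N - k) : ℕ) : ℝ) := by
    push_cast
    rw [eq_div_iff (by positivity)]
    have : (2:ℝ) ^ N = 2 ^ k * 2 ^ (N - k) := by
      rw [← pow_add, Nat.add_sub_cancel' h]
    rw [this]
    ring
  rw [e, Int.floor_div_natCast]
  push_cast
  rfl

/-- the fine digits given the coarse ones -/
noncomputable def fin (k N : ℕ) (z : ℤ) : Finset ℤ := Finset.Ico (2 ^ (N - k) * z) (2 ^ (N - k) * (z + 1))

theorem fin_card (k N : ℕ) (z : ℤ) : (fin k N z).card = 2 ^ (N - k) := by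
  unfold fin
  rw [Int.card_Ico]
  have : (2 : ℤ) ^ (N - k) * (z + 1) - 2 ^ (N - k) * z = ((2 ^ (N - k) : ℕ) : ℤ) := by
    push_cast
    ring
  rw [this, Int.toNat_natCast]

theorem mem_fin {k N : ℕ} (h : k ≤ N) (x : ℝ) : fl1 N x ∈ fin k N (fl1 k x) := by
  have hp : (0:ℤ) < 2 ^ (N - k) := by positivity
  unfold fin
  rw [Finset.mem_Ico, fl1_div h]
  constructor
  · exact Int.mul_ediv_self_le hp.ne'
  · exact (Int.lt_mul_ediv_self_add hp).trans_eq (by ring)

/-- a vector from its coordinates in a frame -/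
theorem abs_le_co (θ : ℝ) (v : Fin 2 → ℝ) (k : Fin 2) : |v k| ≤ |co θ v 0| + |co θ v 1| := by
  have h0 := co_rot0 θ 0 v
  have h1 := co_rot1 θ 0 v
  have e0 : co 0 v 0 = v 0 := by simp [co]
  have e1 : co 0 v 1 = v 1 := by simp [co]
  rw [e0] at h0
  rw [e1] at h1
  have hc := Real.abs_cos_le_one (0 - θ)
  have hs := Real.abs_sin_le_one (0 - θ)
  have a0 := abs_nonneg (co θ v 0)
  have a1 := abs_nonneg (co θ v 1)
  fin_cases k
  · show |v 0| ≤ _
    rw [h0]
    refine (abs_add_le _ _).trans ?_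
    rw [abs_mul, abs_mul]
    nlinarith
  · show |v 1| ≤ _
    rw [h1]
    refine (abs_add_le _ _).trans ?_
    rw [abs_mul, abs_mul, abs_neg]
    nlinarith

section flg

variable {K : ℕ} {F : Flg K} {J θ H e : ℕ → ℝ} {W : ℕ → F.S.BX} {kk jj : ℕ → ℕ → ℕ}

/-- digits of the line in the frame of the plank -/
noncomputable def xD (F : Flg K) (W : ℕ → F.S.BX) (kk jj : ℕ → ℕ → ℕ) (c : ℕ) : F.S.RV ((ℤ × ℤ) × (ℤ × ℤ)) := fun a ω =>
  (fkj (c * F.n a) (c * F.n a) (co (qa (jj c a - kk c a) ((W c a).θ ω)) (F.ln c a ω).1),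
   fkj (c * F.n a) (c * F.n a) (co (qa (jj c a - kk c a) ((W c a).θ ω)) (F.ln c a ω).2))

theorem tame_xD (R : RegA F J θ H e W kk jj) {c : ℕ} (hc : c ≤ K) : Tame (xD F W kk jj c) := by
  have tN : Tame (F.N c) := cnt_tame (R.N1 c hc)
  refine tN.mono ?_
  filter_upwards [R.Wfn c hc] with a h1 ω ω' hω hω' q
  have q' : F.N c a ω = F.N c a ω' := q
  have h2 : (W c a).θ ω = (W c a).θ ω' := h1 ω ω' hω hω' q
  unfold xD Flg.ln
  rw [q', h2]

/-- the node is determined by the plank, the ball and the digits, up to `O(1)` -/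
theorem zero_N (R : RegA F J θ H e W kk jj) {c : ℕ} (hc : c ≤ K) :
    F.S.hc (F.N c) (Sys.pr (xD F W kk jj c) (vL F W c)) = 0 := by
  classical
  obtain ⟨B, hB⟩ := exists_nat_ge (5 * F.C + 2)
  refine hc_zero_of_le (Real.log (((2 * B + 1) ^ 2 * (2 * B + 1) ^ 2 : ℕ) : ℝ)) ?_
  filter_upwards [R.Wok c hc] with a hW
  refine Stk.hc_le_log (F.S.P a) (F.N c a) _ _ fun ω hω => ?_
  refine ⟨((Fintype.piFinset fun k => Finset.Icc ((F.N c a ω).τ k - B) ((F.N c a ω).τ k + B)) ×ˢ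
    (Fintype.piFinset fun k => Finset.Icc ((F.N c a ω).o k - B) ((F.N c a ω).o k + B))).image
    fun p => (⟨p.1, p.2, (F.N c a ω).T⟩ : Nd), ?_, fun ω' hω' q => ?_⟩
  · refine Finset.card_image_le.trans ?_
    rw [Finset.card_product, Fintype.card_piFinset, Fintype.card_piFinset]
    have h1 : ∀ x : ℤ, (Finset.Icc (x - (B : ℤ)) (x + B)).card = 2 * B + 1 := by
      intro x
      rw [Int.card_Icc]
      omega
    simp only [h1, Finset.prod_const, Finset.card_univ, Fintype.card_fin]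
    exact le_rfl
  · have qX : xD F W kk jj c a ω' = xD F W kk jj c a ω := congrArg Prod.fst q
    have qV : vL F W c a ω' = vL F W c a ω := congrArg Prod.snd q
    have qL : (W c a).lab ω' = (W c a).lab ω := congrArg Prod.fst qV
    have qB : F.ball c a ω' = F.ball c a ω := congrArg Prod.snd qV
    have bT' := congrArg Prod.fst qB
    have bT : (F.N c a ω').T = (F.N c a ω).T := bT'
    have bo' := congrArg Prod.snd qB
    have bo : ∀ k, (F.N c a ω').o k / 2 ^ (c * F.n a) = (F.N c a ω).o k / 2 ^ (c * F.n a) :=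
      fun k => congrFun bo' k
    have hqa : qa (jj c a - kk c a) ((W c a).θ ω') = qa (jj c a - kk c a) ((W c a).θ ω) := by
      have q' : lab ((W c a).θ ω') ((W c a).k ω') ((W c a).j ω') ((W c a).l ω') =
        lab ((W c a).θ ω) ((W c a).k ω) ((W c a).j ω) ((W c a).l ω) := qL
      rw [(hW ω hω).2.2.1, (hW ω hω).2.2.2.1, (hW ω' hω').2.2.1, (hW ω' hω').2.2.2.1] at q'
      unfold lab at q'
      simp only [Prod.mk.injEq, true_and] at q'
      unfold qa
      rw [q'.1]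
    unfold xD at qX
    rw [hqa] at qX
    unfold fkj at qX
    simp only [Prod.mk.injEq] at qX
    obtain ⟨⟨x1, x2⟩, x3, x4⟩ := qX
    have y1 := fl1_close x1
    have y2 := fl1_close x2
    have y3 := fl1_close x3
    have y4 := fl1_close x4
    rw [← co_sub] at y1 y2 y3 y4
    have z1 : ∀ k, |(F.ln c a ω').1 k - (F.ln c a ω).1 k| ≤ 2 * (1 / 2 : ℝ) ^ (c * F.n a) := fun k =>
      (abs_le_co _ (fun k => (F.ln c a ω').1 k - (F.ln c a ω).1 k) k).trans (by linarith)
    have z2 : ∀ k, |(F.ln c a ω').2 k - (F.ln c a ω).2 k| ≤ 2 * (1 / 2 : ℝ) ^ (c * F.n a) := fun k =>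
      (abs_le_co _ (fun k => (F.ln c a ω').2 k - (F.ln c a ω).2 k) k).trans (by linarith)
    have hpp : (2:ℝ) ^ (c * F.n a) * (1 / 2) ^ (c * F.n a) = 1 := by
      rw [← mul_pow]
      norm_num
    have hC : 0 ≤ F.C := Chn.C_nonneg (F.slp a)
    rw [Finset.mem_image]
    refine ⟨((F.N c a ω').τ, (F.N c a ω').o), ?_, ?_⟩
    · rw [Finset.mem_product, Fintype.mem_piFinset, Fintype.mem_piFinset]
      constructor
      · intro k
        have h1 := (F.slp a).colip c (F.N c a ω').τ (F.N c a ω).τ hc ((chn F a ω' hω').cap c hc) ((chn F a ω hω).cap c hc)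
        have e0 : F.s a c (F.N c a ω').τ 0 - F.s a c (F.N c a ω).τ 0 = (F.ln c a ω').2 0 - (F.ln c a ω).2 0 := rfl
        have e1 : F.s a c (F.N c a ω').τ 1 - F.s a c (F.N c a ω).τ 1 = (F.ln c a ω').2 1 - (F.ln c a ω).2 1 := rfl
        rw [e0, e1] at h1
        have h2 : (2:ℝ) ^ (c * F.n a) * (|(F.ln c a ω').2 0 - (F.ln c a ω).2 0| + |(F.ln c a ω').2 1 - (F.ln c a ω).2 1|) ≤ 4 := by
          have h3 := mul_le_mul_of_nonneg_left (add_le_add (z2 0) (z2 1)) (by positivity : (0:ℝ) ≤ 2 ^ (c * F.n a))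
          have e3 : (2:ℝ) ^ (c * F.n a) * (2 * (1 / 2 : ℝ) ^ (c * F.n a) + 2 * (1 / 2 : ℝ) ^ (c * F.n a)) =
            4 * ((2:ℝ) ^ (c * F.n a) * (1 / 2) ^ (c * F.n a)) := by ring
          rw [e3, hpp] at h3
          linarith
        have h4 : F.C * ((2:ℝ) ^ (c * F.n a) * (|(F.ln c a ω').2 0 - (F.ln c a ω).2 0| +
            |(F.ln c a ω').2 1 - (F.ln c a ω).2 1|) + 1) ≤ 5 * F.C := by nlinarith
        have h5 : |((F.N c a ω').τ k : ℝ) - (F.N c a ω).τ k| ≤ B := by
          have h6 : |((F.N c a ω').τ k : ℝ) - (F.N c a ω).τ k| ≤ |((F.N c a ω').τ 0 : ℝ) - (F.N c a ω).τ 0| +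
              |((F.N c a ω').τ 1 : ℝ) - (F.N c a ω).τ 1| := by
            fin_cases k
            · exact le_add_of_nonneg_right (abs_nonneg _)
            · exact le_add_of_nonneg_left (abs_nonneg _)
          linarith
        have h7 : |(F.N c a ω').τ k - (F.N c a ω).τ k| ≤ (B : ℤ) := by exact_mod_cast h5
        rw [Finset.mem_Icc]
        rw [abs_le] at h7
        constructor <;> linarith [h7.1, h7.2]
      · intro k
        have e1 : (F.ln c a ω').1 k - (F.ln c a ω).1 k = (((F.N c a ω').o k : ℝ) - (F.N c a ω).o k) / 2 ^ (c * F.n a) :=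
          fract_sub_of (bo k)
        have h1 := z1 k
        rw [e1, abs_div, abs_of_pos (by positivity : (0:ℝ) < 2 ^ (c * F.n a)), div_le_iff₀ (by positivity)] at h1
        have h5 : |((F.N c a ω').o k : ℝ) - (F.N c a ω).o k| ≤ B := by
          have e3 : 2 * (1 / 2 : ℝ) ^ (c * F.n a) * 2 ^ (c * F.n a) = 2 * ((2:ℝ) ^ (c * F.n a) * (1 / 2) ^ (c * F.n a)) := by
            ring
          rw [e3, hpp] at h1
          linarith
        have h7 : |(F.N c a ω').o k - (F.N c a ω).o k| ≤ (B : ℤ) := by exact_mod_cast h5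
        rw [Finset.mem_Icc]
        rw [abs_le] at h7
        constructor <;> linarith [h7.1, h7.2]
    · rw [← bT]

theorem ub_cn (hK : 1 ≤ K) (c : ℕ) (hc : c ≤ K) : UB fun a => ((c * F.n a : ℕ) : ℝ) / F.S.L a :=
  Bd.ub (S := F.S) (n := fun a => c * F.n a) (bd_m F c hc)

/-- the number of the digits -/
theorem hc_xD (hK : 1 ≤ K) (R : RegA F J θ H e W kk jj) {c : ℕ} (hc : c ≤ K) :
    F.S.hc (xD F W kk jj c) (vL F W c) ≤ 2 * (2 * c / K - F.S.nu (kk c) - F.S.nu (jj c)) := by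
  classical
  have bkk := bd_kk R hc
  have bjj := bd_jj R hc
  have bm : F.S.Bd fun a => c * F.n a := bd_m F c hc
  have hcn : F.S.nu (fun a => c * F.n a) = (c:ℝ) / K := nu_mul F hK c
  set f : ℕ → ℝ := fun a => 2 * ((((c * F.n a : ℕ) : ℝ) / F.S.L a - (kk c a : ℝ) / F.S.L a) +
    (((c * F.n a : ℕ) : ℝ) / F.S.L a - (jj c a : ℝ) / F.S.L a)) with hf
  have ubf : UB f := ((bm.ub.sub bkk.ub).add (bm.ub.sub bjj.ub)).const_mul 2
  have hlim : ulim f = 2 * (2 * c / K - F.S.nu (kk c) - F.S.nu (jj c)) := by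
    rw [hf, ulim_const_mul 2 ((bm.ub.sub bkk.ub).add (bm.ub.sub bjj.ub)), ulim_add (bm.ub.sub bkk.ub) (bm.ub.sub bjj.ub),
      ulim_sub bm.ub bkk.ub, ulim_sub bm.ub bjj.ub]
    have e1 : ulim (fun a => ((c * F.n a : ℕ) : ℝ) / F.S.L a) = (c:ℝ) / K := hcn
    rw [e1]
    unfold Sys.nu
    ring
  rw [← hlim]
  have hbd : ∀ᶠ a in (uf : Filter ℕ), Stk.hc (F.S.P a) (xD F W kk jj c a) (vL F W c a) ≤ f a * F.S.nm a := by
    filter_upwards [R.Wok c hc, F.S.L_pos] with a hW hL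
    have hL' : (0:ℝ) < F.S.L a := by exact_mod_cast hL
    obtain ⟨ω0, hω0⟩ := law_pos (F.S.P a)
    have hkj : kk c a ≤ jj c a := (hW ω0 hω0).2.2.2.2.1
    have hjn : jj c a ≤ c * F.n a := (hW ω0 hω0).2.2.2.2.2
    have hkn := hkj.trans hjn
    set N := c * F.n a with hN
    have h1 : Stk.hc (F.S.P a) (xD F W kk jj c a) (vL F W c a) ≤
        Real.log (((2 ^ (N - kk c a) * 2 ^ (N - jj c a)) * (2 ^ (N - kk c a) * 2 ^ (N - jj c a)) : ℕ) : ℝ) := by
      refine Stk.hc_le_log (F.S.P a) _ _ _ fun ω hω => ?_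
      set r := qa (jj c a - kk c a) ((W c a).θ ω) with hr
      refine ⟨(fin (kk c a) N (fl1 (kk c a) (co r (F.ln c a ω).1 0)) ×ˢ fin (jj c a) N (fl1 (jj c a) (co r (F.ln c a ω).1 1))) ×ˢ
        (fin (kk c a) N (fl1 (kk c a) (co r (F.ln c a ω).2 0)) ×ˢ fin (jj c a) N (fl1 (jj c a) (co r (F.ln c a ω).2 1))),
        ?_, fun ω' hω' q => ?_⟩
      · simp only [Finset.card_product, fin_card]
        exact le_rfl
      · have qL : (W c a).lab ω' = (W c a).lab ω := congrArg Prod.fst q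
        have q' : lab ((W c a).θ ω') ((W c a).k ω') ((W c a).j ω') ((W c a).l ω') =
          lab ((W c a).θ ω) ((W c a).k ω) ((W c a).j ω) ((W c a).l ω) := qL
        rw [(hW ω hω).1, (hW ω' hω').1, (hW ω hω).2.2.1, (hW ω hω).2.2.2.1, (hW ω' hω').2.2.1,
          (hW ω' hω').2.2.2.1] at q'
        unfold lab at q'
        simp only [Prod.mk.injEq, true_and] at q'
        obtain ⟨q1, q2, q3⟩ := q'
        have hqa : qa (jj c a - kk c a) ((W c a).θ ω') = r := by
          rw [hr]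
          unfold qa
          rw [q1]
        rw [hqa, ← hr] at q2 q3
        unfold fkj at q2 q3
        simp only [Prod.mk.injEq] at q2 q3
        unfold xD
        rw [hqa, ← q2.1, ← q2.2, ← q3.1, ← q3.2]
        simp only [fkj, Finset.mem_product]
        exact ⟨⟨mem_fin hkn _, mem_fin hjn _⟩, mem_fin hkn _, mem_fin hjn _⟩
    refine h1.trans (le_of_eq ?_)
    push_cast
    rw [Real.log_mul (by positivity) (by positivity), Real.log_mul (by positivity) (by positivity), Real.log_pow,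
      Real.log_pow, Nat.cast_sub hkn, Nat.cast_sub hjn, hf]
    unfold Sys.nm
    field_simp
    ring
  have tX : Tame (xD F W kk jj c) := tame_xD R hc
  refine ulim_le (UB.hc tX _) ubf ?_
  filter_upwards [hbd, F.S.nm_pos] with a g1 g2
  rw [div_le_iff₀ g2]
  exact g1

end flg

/-- **excess of a plank** -/
theorem stExc : StExc := by
  intro K F J θ H e W kk jj hK R c hc
  have tN : Tame (F.N c) := cnt_tame (R.N1 c hc)
  have tV : Tame (vL F W c) := cnt_tame (R.W1 c hc)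
  have h1 : F.S.hc (F.N c) (one (S := F.S)) = H c := (e1 F J θ H e W kk jj hK R).1 c hc
  have h2 := hc_le_add tN tV (one (S := F.S))
  have h3 : F.S.hc (F.N c) (Sys.pr (vL F W c) (one (S := F.S))) ≤ F.S.hc (F.N c) (vL F W c) :=
    hc_mono_right tN (Eventually.of_forall fun _ _ _ _ _ q => congrArg Prod.fst q)
  have h4 := cnt_hc_le (R.W1 c hc)
  have h4' : F.S.hc (vL F W c) (one (S := F.S)) ≤
    H c - e c - (2 * c / K - F.S.nu (kk c) - F.S.nu (jj c)) + 1 / K := h4
  have tX : Tame (xD F W kk jj c) := tame_xD R hc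
  have h5 := hc_le_add tN tX (vL F W c)
  rw [zero_N R hc, zero_add] at h5
  have h6 := hc_xD hK R hc
  linarith

end Vale.Agent.P122.H624
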